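import Mathlib

/-! Reductions of the integral solvability problem to restricted rational solvability. -/

namespace Vale.Agent.P027

open MvPolynomial

/-- A rational zero with integral coordinates is an integral zero. -/
theorem int_of_den {n : ℕ} (f : MvPolynomial (Fin n) ℤ) (x : Fin n → ℚ) (h : ∀ i, (x i).den = 1)
    (h0 : aeval x f = 0) : ∃ z : Fin n → ℤ, aeval z f = 0 := by
  refine ⟨fun i => (x i).num, ?_⟩
  have hx : x = fun i => algebraMap ℤ ℚ ((x i).num) := by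
    funext i
    exact (Rat.coe_int_num_of_den_eq_one (h i)).symm
  have h1 : algebraMap ℤ ℚ (aeval (fun i => (x i).num) f) = 0 := by
    rw [← aeval_algebraMap_apply]
    rw [hx] at h0
    exact h0
  exact (map_eq_zero_iff (algebraMap ℤ ℚ) (RingHom.injective_int _)).mp h1

theorem rat_of_int {n : ℕ} (f : MvPolynomial (Fin n) ℤ) (z : Fin n → ℤ) (h : aeval z f = 0) :
    aeval (fun i => (z i : ℚ)) f = 0 := by
  have h1 := aeval_algebraMap_apply (A := ℤ) (B := ℚ) z f
  rw [h, map_zero] at h1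
  exact h1

theorem sq_add_sum {ι : Type*} (s : Finset ι) (a : ℚ) (b : ι → ℚ) (hb : ∀ i ∈ s, 0 ≤ b i)
    (h : a ^ 2 + ∑ i ∈ s, b i = 0) : a = 0 ∧ ∀ i ∈ s, b i = 0 := by
  have h1 : 0 ≤ ∑ i ∈ s, b i := Finset.sum_nonneg hb
  have h2 := sq_nonneg a
  have h3 : a ^ 2 = 0 := by linarith
  have h4 : ∑ i ∈ s, b i = 0 := by linarith
  exact ⟨pow_eq_zero_iff (two_ne_zero) |>.mp h3, (Finset.sum_eq_zero_iff_of_nonneg hb).mp h4⟩

section thin

/-- The `k`-th powers of rational numbers that are not integers. -/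
def powers (k : ℕ) : Set ℚ := {r | ∃ y : ℚ, y.den ≠ 1 ∧ r = y ^ k}

theorem int_notMem {k : ℕ} (hk : k ≠ 0) (z : ℤ) : (z : ℚ) ∉ powers k := by
  rintro ⟨y, hy, h⟩
  have h1 : (y ^ k).den = 1 := by rw [← h, Rat.den_intCast]
  rw [Rat.den_pow] at h1
  exact hy ((Nat.pow_eq_one.mp h1).resolve_right hk)

theorem thin_reduction {k : ℕ} (hk : k ≠ 0) {n : ℕ} (f : MvPolynomial (Fin n) ℤ)
    (s : Set (Fin n ⊕ Fin n)) (hs : ∀ i, Sum.inr i ∈ s) :
    (∃ z : Fin n → ℤ, aeval z f = 0) ↔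
      ∃ x : Fin n ⊕ Fin n → ℚ, (∀ i ∈ s, x i ∉ powers k) ∧
        aeval x (rename Sum.inl f ^ 2 + ∑ i, (X (Sum.inr i) - X (Sum.inl i) ^ k) ^ 2) = 0 := by
  constructor
  · rintro ⟨z, hz⟩
    refine ⟨Sum.elim (fun i => (z i : ℚ)) (fun i => ((z i ^ k : ℤ) : ℚ)), ?_, ?_⟩
    · rintro (i | i) _
      · exact int_notMem hk (z i)
      · exact int_notMem hk (z i ^ k)
    · rw [map_add, map_pow, aeval_rename, map_sum]
      have h1 : aeval ((Sum.elim (fun i => (z i : ℚ)) (fun i => ((z i ^ k : ℤ) : ℚ))) ∘ Sum.inl) f =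
          0 := rat_of_int f z hz
      rw [h1]
      simp
  · rintro ⟨x, hx, h⟩
    rw [map_add, map_pow, aeval_rename, map_sum] at h
    obtain ⟨h1, h2⟩ := sq_add_sum Finset.univ _ _ (fun i _ => by
      rw [map_pow]
      exact sq_nonneg _) h
    refine int_of_den f (x ∘ Sum.inl) (fun i => ?_) h1
    have h3 := h2 i (Finset.mem_univ i)
    simp only [map_pow, map_sub, aeval_X] at h3
    have h4 : x (Sum.inr i) = x (Sum.inl i) ^ k := by
      have := pow_eq_zero_iff (two_ne_zero) |>.mp h3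
      linarith
    by_contra hden
    exact hx (Sum.inr i) (hs i) ⟨x (Sum.inl i), hden, h4⟩

theorem count {k : ℕ} (hk : k ≠ 0) (C : ℕ) :
    {r : ℚ | r ∈ powers k ∧ r.num.natAbs ≤ C ^ k ∧ r.den ≤ C ^ k}.Finite ∧
    {r : ℚ | r ∈ powers k ∧ r.num.natAbs ≤ C ^ k ∧ r.den ≤ C ^ k}.ncard ≤ (2 * C + 1) * C := by
  let g : ℤ × ℕ → ℚ := fun p => ((p.1 : ℚ) / (p.2 : ℚ)) ^ k
  let T : Finset (ℤ × ℕ) := Finset.Icc (-(C : ℤ)) C ×ˢ Finset.Icc 1 C
  have hsub : {r : ℚ | r ∈ powers k ∧ r.num.natAbs ≤ C ^ k ∧ r.den ≤ C ^ k} ⊆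
      ((T.image g : Finset ℚ) : Set ℚ) := by
    rintro r ⟨⟨y, _, rfl⟩, h1, h2⟩
    rw [Rat.num_pow, Int.natAbs_pow] at h1
    rw [Rat.den_pow] at h2
    have h3 : y.num.natAbs ≤ C := (Nat.pow_le_pow_iff_left hk).mp h1
    have h4 : y.den ≤ C := (Nat.pow_le_pow_iff_left hk).mp h2
    rw [Finset.coe_image]
    refine ⟨(y.num, y.den), ?_, ?_⟩
    · rw [Finset.mem_coe, Finset.mem_product, Finset.mem_Icc, Finset.mem_Icc]
      have := y.pos
      refine ⟨⟨?_, ?_⟩, ?_, h4⟩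
      · show -(C : ℤ) ≤ y.num
        omega
      · show y.num ≤ (C : ℤ)
        omega
      · show 1 ≤ y.den
        omega
    · show ((y.num : ℚ) / (y.den : ℚ)) ^ k = y ^ k
      rw [Rat.num_div_den]
  refine ⟨(T.image g).finite_toSet.subset hsub, ?_⟩
  calc _ ≤ ((T.image g : Finset ℚ) : Set ℚ).ncard :=
        Set.ncard_le_ncard hsub (T.image g).finite_toSet
    _ = (T.image g).card := Set.ncard_coe_finset _
    _ ≤ T.card := Finset.card_image_le
    _ = (2 * C + 1) * C := by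
        rw [Finset.card_product, Int.card_Icc, Nat.card_Icc]
        congr 1
        omega

end thin

section primes

theorem notDvd_add {q : ℕ} (hq : q.Prime) {x y : ℚ} (hx : ¬ q ∣ x.den) (hy : ¬ q ∣ y.den) :
    ¬ q ∣ (x + y).den := by
  intro h
  rcases (hq.dvd_mul.mp (h.trans (Rat.add_den_dvd x y))) with h1 | h1
  · exact hx h1
  · exact hy h1

theorem notDvd_sub {q : ℕ} (hq : q.Prime) {x y : ℚ} (hx : ¬ q ∣ x.den) (hy : ¬ q ∣ y.den) :
    ¬ q ∣ (x - y).den := by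
  rw [sub_eq_add_neg]
  refine notDvd_add hq hx ?_
  rwa [Rat.den_neg_eq_den]

theorem dvd_den {q : ℕ} (hq : q.Prime) {d c : ℕ} (hd : d ≠ 0) (hqd : q ∣ d) (hqc : ¬ q ∣ c) :
    q ∣ ((c : ℚ) * (d : ℚ)⁻¹).den := by
  have hd' : (d : ℚ) ≠ 0 := Nat.cast_ne_zero.mpr hd
  have h1 : ((c : ℚ) * (d : ℚ)⁻¹) * d = c := by field_simp
  have h2 : ((((c : ℚ) * (d : ℚ)⁻¹).num * d : ℤ) : ℚ) =
      ((c * ((c : ℚ) * (d : ℚ)⁻¹).den : ℤ) : ℚ) := by
    have h3 := Rat.mul_den_eq_num ((c : ℚ) * (d : ℚ)⁻¹)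
    push_cast
    rw [← h3]
    calc (c : ℚ) * (d : ℚ)⁻¹ * (((c : ℚ) * (d : ℚ)⁻¹).den : ℚ) * d
        = ((c : ℚ) * (d : ℚ)⁻¹) * d * (((c : ℚ) * (d : ℚ)⁻¹).den : ℚ) := by ring
      _ = _ := by rw [h1]
  have h4 : ((c : ℚ) * (d : ℚ)⁻¹).num * d = c * ((c : ℚ) * (d : ℚ)⁻¹).den := by
    exact_mod_cast h2
  have h5 : (q : ℤ) ∣ (c * ((c : ℚ) * (d : ℚ)⁻¹).den : ℤ) := by
    rw [← h4]
    exact Dvd.dvd.mul_left (Int.natCast_dvd_natCast.mpr hqd) _
  have h6 : q ∣ c * ((c : ℚ) * (d : ℚ)⁻¹).den := by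
    exact_mod_cast h5
  exact (hq.dvd_mul.mp h6).resolve_left hqc

theorem two_tests {x : ℚ} {d k : ℕ} (hd : Odd d) (hk : d.primeFactors.card = k)
    (h1 : (x + (d : ℚ)⁻¹).den.primeFactors.card ≤ k)
    (h2 : (x - (d : ℚ)⁻¹).den.primeFactors.card ≤ k) :
    2 * (x.den.primeFactors \ d.primeFactors).card ≤
      (x.den.primeFactors ∩ d.primeFactors).card := by
  classical
  have hd0 : d ≠ 0 := by
    rintro rfl
    exact absurd hd (by decide)
  have hmem : ∀ (y : ℚ) (q : ℕ), q.Prime → (q ∈ y.den.primeFactors ↔ q ∣ y.den) := by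
    intro y q hq
    rw [Nat.mem_primeFactors]
    exact ⟨fun h => h.2.1, fun h => ⟨hq, h, y.den_ne_zero⟩⟩
  have hdinv : (((d : ℚ)⁻¹)).den = d := Rat.inv_natCast_den_of_pos (Nat.pos_of_ne_zero hd0)
  -- the general estimate for one test
  have one : ∀ y : ℚ, (∀ q : ℕ, q.Prime → ¬ q ∣ d → q ∣ x.den → q ∣ y.den) →
      (∀ q : ℕ, q.Prime → q ∣ d → ¬ q ∣ x.den → q ∣ y.den) → y.den.primeFactors.card ≤ k →
      (x.den.primeFactors \ d.primeFactors).card ≤
        ((x.den.primeFactors ∩ d.primeFactors) \ y.den.primeFactors).card := by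
    intro y ha hb hy
    have hdisj : Disjoint (x.den.primeFactors \ d.primeFactors)
        (d.primeFactors \ ((x.den.primeFactors ∩ d.primeFactors) \ y.den.primeFactors)) := by
      rw [Finset.disjoint_left]
      intro q hq hq'
      exact (Finset.mem_sdiff.mp hq).2 (Finset.mem_sdiff.mp hq').1
    have hsub : (x.den.primeFactors \ d.primeFactors) ∪
        (d.primeFactors \ ((x.den.primeFactors ∩ d.primeFactors) \ y.den.primeFactors)) ⊆
        y.den.primeFactors := by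
      intro q hq
      rcases Finset.mem_union.mp hq with hq | hq
      · obtain ⟨h3, h4⟩ := Finset.mem_sdiff.mp hq
        have hp := Nat.prime_of_mem_primeFactors h3
        refine (hmem y q hp).mpr (ha q hp ?_ (Nat.dvd_of_mem_primeFactors h3))
        intro h5
        exact h4 (Nat.mem_primeFactors.mpr ⟨hp, h5, hd0⟩)
      · obtain ⟨h3, h4⟩ := Finset.mem_sdiff.mp hq
        have hp := Nat.prime_of_mem_primeFactors h3
        by_contra h5
        by_cases h6 : q ∣ x.den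
        · exact h4 (Finset.mem_sdiff.mpr ⟨Finset.mem_inter.mpr ⟨(hmem x q hp).mpr h6, h3⟩, h5⟩)
        · exact h5 ((hmem y q hp).mpr (hb q hp (Nat.dvd_of_mem_primeFactors h3) h6))
    have h7 := Finset.card_le_card hsub
    rw [Finset.card_union_of_disjoint hdisj] at h7
    have h8 := Finset.card_sdiff_add_card_eq_card (s := (x.den.primeFactors ∩ d.primeFactors) \
      y.den.primeFactors) (t := d.primeFactors)
      (fun q hq => (Finset.mem_inter.mp (Finset.mem_sdiff.mp hq).1).2)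
    omega
  have hnd : ∀ q : ℕ, q.Prime → ¬ q ∣ d → ¬ q ∣ ((d : ℚ)⁻¹).den := by
    intro q _ h
    rwa [hdinv]
  have hx1 : x = (x + (d : ℚ)⁻¹) - (d : ℚ)⁻¹ := by ring
  have hx2 : x = (x - (d : ℚ)⁻¹) + (d : ℚ)⁻¹ := by ring
  have hd1 : (d : ℚ)⁻¹ = (x + (d : ℚ)⁻¹) - x := by ring
  have hd2 : (d : ℚ)⁻¹ = x - (x - (d : ℚ)⁻¹) := by ring
  have e1 := one (x + (d : ℚ)⁻¹) (fun q hq hqd hqx => by
      by_contra hcon
      have := notDvd_sub hq hcon (hnd q hq hqd)
      rw [← hx1] at this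
      exact this hqx)
    (fun q hq hqd hqx => by
      by_contra hcon
      have := notDvd_sub hq hcon hqx
      rw [← hd1, hdinv] at this
      exact this hqd) h1
  have e2 := one (x - (d : ℚ)⁻¹) (fun q hq hqd hqx => by
      by_contra hcon
      have := notDvd_add hq hcon (hnd q hq hqd)
      rw [← hx2] at this
      exact this hqx)
    (fun q hq hqd hqx => by
      by_contra hcon
      have := notDvd_sub hq hqx hcon
      rw [← hd2, hdinv] at this
      exact this hqd) h2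
  have hdisj : Disjoint ((x.den.primeFactors ∩ d.primeFactors) \
        (x + (d : ℚ)⁻¹).den.primeFactors)
      ((x.den.primeFactors ∩ d.primeFactors) \ (x - (d : ℚ)⁻¹).den.primeFactors) := by
    rw [Finset.disjoint_left]
    intro q hq hq'
    obtain ⟨h3, h4⟩ := Finset.mem_sdiff.mp hq
    obtain ⟨-, h5⟩ := Finset.mem_sdiff.mp hq'
    have h6 := (Finset.mem_inter.mp h3).2
    have hp := Nat.prime_of_mem_primeFactors h6
    have hqd := Nat.dvd_of_mem_primeFactors h6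
    rw [hmem _ q hp] at h4 h5
    have h7 := notDvd_sub hp h4 h5
    have h8 : (x + (d : ℚ)⁻¹) - (x - (d : ℚ)⁻¹) = ((2 : ℕ) : ℚ) * (d : ℚ)⁻¹ := by
      push_cast
      ring
    rw [h8] at h7
    refine h7 (dvd_den hp hd0 hqd ?_)
    intro h9
    have h10 : q = 2 := (Nat.prime_dvd_prime_iff_eq hp Nat.prime_two).mp h9
    rw [h10] at hqd
    exact (Nat.not_even_iff_odd.mpr hd) (even_iff_two_dvd.mpr hqd)
  have hsub := Finset.card_le_card (Finset.union_subset
    (Finset.sdiff_subset (s := x.den.primeFactors ∩ d.primeFactors)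
      (t := (x + (d : ℚ)⁻¹).den.primeFactors))
    (Finset.sdiff_subset (s := x.den.primeFactors ∩ d.primeFactors)
      (t := (x - (d : ℚ)⁻¹).den.primeFactors)))
  rw [Finset.card_union_of_disjoint hdisj] at hsub
  omega

theorem den_eq_one {x : ℚ} {d d' k : ℕ} (hd : Odd d) (hd' : Odd d') (hc : Nat.Coprime d d')
    (hk : d.primeFactors.card = k) (hk' : d'.primeFactors.card = k)
    (h1 : (x + (d : ℚ)⁻¹).den.primeFactors.card ≤ k)
    (h2 : (x - (d : ℚ)⁻¹).den.primeFactors.card ≤ k)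
    (h3 : (x + (d' : ℚ)⁻¹).den.primeFactors.card ≤ k)
    (h4 : (x - (d' : ℚ)⁻¹).den.primeFactors.card ≤ k) : x.den = 1 := by
  classical
  have e1 := two_tests hd hk h1 h2
  have e2 := two_tests hd' hk' h3 h4
  have hdis : Disjoint d.primeFactors d'.primeFactors := Nat.Coprime.disjoint_primeFactors hc
  have e3 : (x.den.primeFactors ∩ d'.primeFactors).card ≤
      (x.den.primeFactors \ d.primeFactors).card := by
    apply Finset.card_le_card
    intro q hq
    obtain ⟨h5, h6⟩ := Finset.mem_inter.mp hq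
    exact Finset.mem_sdiff.mpr ⟨h5, fun h7 => Finset.disjoint_left.mp hdis h7 h6⟩
  have e4 : (x.den.primeFactors ∩ d.primeFactors).card ≤
      (x.den.primeFactors \ d'.primeFactors).card := by
    apply Finset.card_le_card
    intro q hq
    obtain ⟨h5, h6⟩ := Finset.mem_inter.mp hq
    exact Finset.mem_sdiff.mpr ⟨h5, fun h7 => Finset.disjoint_left.mp hdis h6 h7⟩
  have e5 := Finset.card_inter_add_card_sdiff x.den.primeFactors d.primeFactors
  have e6 : x.den.primeFactors.card = 0 := by omega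
  have e7 := Finset.card_eq_zero.mp e6
  rcases Nat.primeFactors_eq_empty.mp e7 with h | h
  · exact absurd h x.den_ne_zero
  · exact h

theorem primes_reduction {n : ℕ} (f : MvPolynomial (Fin n) ℤ) {d d' k : ℕ} (hd : Odd d)
    (hd' : Odd d') (hc : Nat.Coprime d d') (hk : d.primeFactors.card = k)
    (hk' : d'.primeFactors.card = k) (s : Set (Fin n × Fin 5)) (hs : ∀ i j, j ≠ 0 → (i, j) ∈ s) :
    (∃ z : Fin n → ℤ, aeval z f = 0) ↔
      ∃ x : Fin n × Fin 5 → ℚ, (∀ i ∈ s, (x i).den.primeFactors.card ≤ k) ∧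
        aeval x (rename (fun i => (i, (0 : Fin 5))) f ^ 2 + ∑ i : Fin n,
          ((C (d : ℤ) * (X (i, 1) - X (i, 0)) - 1) ^ 2 +
            (C (d : ℤ) * (X (i, 2) - X (i, 0)) + 1) ^ 2 +
            (C (d' : ℤ) * (X (i, 3) - X (i, 0)) - 1) ^ 2 +
            (C (d' : ℤ) * (X (i, 4) - X (i, 0)) + 1) ^ 2)) = 0 := by
  have hd0 : d ≠ 0 := by
    rintro rfl
    exact absurd hd (by decide)
  have hd0' : d' ≠ 0 := by
    rintro rfl
    exact absurd hd' (by decide)
  have hq : (d : ℚ) ≠ 0 := Nat.cast_ne_zero.mpr hd0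
  have hq' : (d' : ℚ) ≠ 0 := Nat.cast_ne_zero.mpr hd0'
  have hdinv : (((d : ℚ)⁻¹)).den = d := Rat.inv_natCast_den_of_pos (Nat.pos_of_ne_zero hd0)
  have hdinv' : (((d' : ℚ)⁻¹)).den = d' := Rat.inv_natCast_den_of_pos (Nat.pos_of_ne_zero hd0')
  constructor
  · rintro ⟨z, hz⟩
    refine ⟨fun p => (z p.1 : ℚ) + ![0, (d : ℚ)⁻¹, -(d : ℚ)⁻¹, (d' : ℚ)⁻¹, -(d' : ℚ)⁻¹] p.2,
      ?_, ?_⟩
    · rintro ⟨i, j⟩ _
      show ((z i : ℚ) + ![0, (d : ℚ)⁻¹, -(d : ℚ)⁻¹, (d' : ℚ)⁻¹, -(d' : ℚ)⁻¹] j).den.primeFactors.card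
        ≤ k
      rw [add_comm, Rat.add_intCast_den]
      fin_cases j
      · simp
      · simp only [Fin.mk_one, Matrix.cons_val_one, Matrix.cons_val_zero]
        rw [hdinv, hk]
      · simp only [Fin.reduceFinMk, Matrix.cons_val]
        rw [Rat.den_neg_eq_den, hdinv, hk]
      · simp only [Fin.reduceFinMk, Matrix.cons_val]
        rw [hdinv', hk']
      · simp only [Fin.reduceFinMk, Matrix.cons_val]
        rw [Rat.den_neg_eq_den, hdinv', hk']
    · rw [map_add, map_pow, aeval_rename, map_sum]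
      have h1 : aeval ((fun p : Fin n × Fin 5 => (z p.1 : ℚ) +
          ![0, (d : ℚ)⁻¹, -(d : ℚ)⁻¹, (d' : ℚ)⁻¹, -(d' : ℚ)⁻¹] p.2) ∘
          fun i => (i, (0 : Fin 5))) f = 0 := by
        have h2 : ((fun p : Fin n × Fin 5 => (z p.1 : ℚ) +
          ![0, (d : ℚ)⁻¹, -(d : ℚ)⁻¹, (d' : ℚ)⁻¹, -(d' : ℚ)⁻¹] p.2) ∘
          fun i => (i, (0 : Fin 5))) = fun i => (z i : ℚ) := by
          funext i
          simp
        rw [h2]
        exact rat_of_int f z hz
      rw [h1]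
      simp only [map_add, map_sub, map_mul, map_pow, aeval_X, aeval_C, map_one]
      simp [hq, hq']
  · rintro ⟨x, hx, h⟩
    rw [map_add, map_pow, aeval_rename, map_sum] at h
    obtain ⟨h1, h2⟩ := sq_add_sum Finset.univ _ _ (fun i _ => by
      simp only [map_add, map_pow]
      positivity) h
    refine int_of_den f (x ∘ fun i => (i, (0 : Fin 5))) (fun i => ?_) h1
    have h3 := h2 i (Finset.mem_univ i)
    simp only [map_add, map_sub, map_mul, map_pow, aeval_X, aeval_C, map_one] at h3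
    have c1 : (algebraMap ℤ ℚ) (d : ℤ) = (d : ℚ) := by simp
    have c2 : (algebraMap ℤ ℚ) (d' : ℤ) = (d' : ℚ) := by simp
    rw [c1, c2] at h3
    have s1 := sq_nonneg ((d : ℚ) * (x (i, 1) - x (i, 0)) - 1)
    have s2 := sq_nonneg ((d : ℚ) * (x (i, 2) - x (i, 0)) + 1)
    have s3 := sq_nonneg ((d' : ℚ) * (x (i, 3) - x (i, 0)) - 1)
    have s4 := sq_nonneg ((d' : ℚ) * (x (i, 4) - x (i, 0)) + 1)
    have t1 : (d : ℚ) * (x (i, 1) - x (i, 0)) - 1 = 0 :=
      pow_eq_zero_iff (two_ne_zero) |>.mp (by linarith)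
    have t2 : (d : ℚ) * (x (i, 2) - x (i, 0)) + 1 = 0 :=
      pow_eq_zero_iff (two_ne_zero) |>.mp (by linarith)
    have t3 : (d' : ℚ) * (x (i, 3) - x (i, 0)) - 1 = 0 :=
      pow_eq_zero_iff (two_ne_zero) |>.mp (by linarith)
    have t4 : (d' : ℚ) * (x (i, 4) - x (i, 0)) + 1 = 0 :=
      pow_eq_zero_iff (two_ne_zero) |>.mp (by linarith)
    have u1 : x (i, 0) + (d : ℚ)⁻¹ = x (i, 1) := by
      field_simp
      linarith
    have u2 : x (i, 0) - (d : ℚ)⁻¹ = x (i, 2) := by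
      field_simp
      linarith
    have u3 : x (i, 0) + (d' : ℚ)⁻¹ = x (i, 3) := by
      field_simp
      linarith
    have u4 : x (i, 0) - (d' : ℚ)⁻¹ = x (i, 4) := by
      field_simp
      linarith
    exact den_eq_one (x := x (i, 0)) hd hd' hc hk hk'
      (by rw [u1]; exact hx _ (hs i 1 (by decide))) (by rw [u2]; exact hx _ (hs i 2 (by decide)))
      (by rw [u3]; exact hx _ (hs i 3 (by decide))) (by rw [u4]; exact hx _ (hs i 4 (by decide)))

theorem total_reduction {n : ℕ} (f : MvPolynomial (Fin n) ℤ) {d k : ℕ} (hd0 : d ≠ 0)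
    (hk : d.primeFactors.card = k) :
    (∃ z : Fin n → ℤ, aeval z f = 0) ↔
      ∃ x : Option (Fin n) → ℚ, ∑ i, (x i).den.primeFactors.card ≤ k ∧
        aeval x (rename some f ^ 2 + (C (d : ℤ) * X none - 1) ^ 2) = 0 := by
  have hq : (d : ℚ) ≠ 0 := Nat.cast_ne_zero.mpr hd0
  have hdinv : (((d : ℚ)⁻¹)).den = d := Rat.inv_natCast_den_of_pos (Nat.pos_of_ne_zero hd0)
  constructor
  · rintro ⟨z, hz⟩
    refine ⟨fun i => i.elim ((d : ℚ)⁻¹) (fun i => (z i : ℚ)), ?_, ?_⟩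
    · rw [Fintype.sum_option]
      simp only [Option.elim_none, Option.elim_some, Rat.den_intCast, Nat.primeFactors_one,
        Finset.card_empty, Finset.sum_const_zero, add_zero]
      rw [hdinv, hk]
    · rw [map_add, map_pow, aeval_rename]
      have h1 : aeval ((fun i : Option (Fin n) => i.elim ((d : ℚ)⁻¹) (fun i => (z i : ℚ))) ∘
          some) f = 0 := rat_of_int f z hz
      rw [h1]
      simp [hq]
  · rintro ⟨x, hx, h⟩
    rw [map_add, map_pow, aeval_rename] at h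
    simp only [map_sub, map_mul, map_pow, aeval_X, aeval_C, map_one] at h
    have c1 : (algebraMap ℤ ℚ) (d : ℤ) = (d : ℚ) := by simp
    rw [c1] at h
    have s0 := sq_nonneg (aeval (x ∘ some) f)
    have s1 := sq_nonneg ((d : ℚ) * x none - 1)
    have t0 : aeval (x ∘ some) f = 0 := pow_eq_zero_iff (two_ne_zero) |>.mp (by linarith)
    have t1 : (d : ℚ) * x none - 1 = 0 := pow_eq_zero_iff (two_ne_zero) |>.mp (by linarith)
    have u1 : x none = (d : ℚ)⁻¹ := by
      field_simp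
      linarith
    rw [Fintype.sum_option, u1, hdinv, hk] at hx
    refine int_of_den f (x ∘ some) (fun i => ?_) t0
    have h5 : ∑ i : Fin n, (x (some i)).den.primeFactors.card = 0 := by omega
    have h6 := (Finset.sum_eq_zero_iff.mp h5) i (Finset.mem_univ i)
    have e7 := Finset.card_eq_zero.mp h6
    rcases Nat.primeFactors_eq_empty.mp e7 with h | h
    · exact absurd h (x (some i)).den_ne_zero
    · exact h

end primes

section cofinite

theorem cofinite_of_rat (E : Finset ℚ) {n : ℕ} (f : MvPolynomial (Fin n) ℤ) :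
    (∃ x : Fin n → ℚ, aeval x f = 0) ↔
      ∃ x : Fin n ⊕ Fin n → ℚ, (∀ i, x i ∉ E) ∧
        aeval x (bind₁ (fun i => X (Sum.inl i) - X (Sum.inr i)) f) = 0 := by
  classical
  constructor
  · rintro ⟨x, hx⟩
    have h1 : ∀ i, ∃ b : ℚ, b ∉ E ∪ E.image (fun e => e - x i) := fun i =>
      Infinite.exists_notMem_finset _
    choose b hb using h1
    refine ⟨Sum.elim (fun i => x i + b i) b, ?_, ?_⟩
    · rintro (i | i)
      · intro h
        apply hb i
        rw [Finset.mem_union, Finset.mem_image]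
        exact Or.inr ⟨_, h, by simp⟩
      · intro h
        exact hb i (Finset.mem_union_left _ h)
    · rw [aeval_bind₁]
      simpa using hx
  · rintro ⟨x, -, h⟩
    rw [aeval_bind₁] at h
    exact ⟨_, h⟩

theorem rat_of_cofinite (E : Finset ℚ) {n : ℕ} (f : MvPolynomial (Fin n) ℤ) :
    (∃ x : Fin n → ℚ, (∀ i, x i ∉ E) ∧ aeval x f = 0) ↔
      ∃ x : Fin n ⊕ Fin n → ℚ, aeval x (rename Sum.inl f ^ 2 + ∑ i,
        (X (Sum.inr i) * ∏ e ∈ E, (C (e.den : ℤ) * X (Sum.inl i) - C e.num) - 1) ^ 2) = 0 := by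
  have key : ∀ x : ℚ, (∏ e ∈ E, ((e.den : ℚ) * x - e.num) ≠ 0) ↔ x ∉ E := by
    intro x
    rw [Finset.prod_ne_zero_iff]
    have h1 : ∀ e : ℚ, (e.den : ℚ) * x - e.num = 0 ↔ x = e := by
      intro e
      have he : (e.den : ℚ) ≠ 0 := Nat.cast_ne_zero.mpr e.den_ne_zero
      have h2 : (e.num : ℚ) = e * e.den := (Rat.mul_den_eq_num e).symm
      rw [h2]
      constructor
      · intro h
        have : (e.den : ℚ) * (x - e) = 0 := by linarith
        rcases mul_eq_zero.mp this with h3 | h3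
        · exact absurd h3 he
        · linarith
      · rintro rfl
        ring
    constructor
    · intro h hx
      exact h x hx ((h1 x).mpr rfl)
    · intro h e he h0
      rw [(h1 e).mp h0] at h
      exact h he
  have hcast : ∀ (m : ℤ), (algebraMap ℤ ℚ) m = (m : ℚ) := fun m => by simp
  constructor
  · rintro ⟨x, hx, h0⟩
    refine ⟨Sum.elim x (fun i => (∏ e ∈ E, ((e.den : ℚ) * x i - e.num))⁻¹), ?_⟩
    rw [map_add, map_pow, aeval_rename, map_sum]
    have h1 : aeval (Sum.elim x (fun i => (∏ e ∈ E, ((e.den : ℚ) * x i - e.num))⁻¹) ∘ Sum.inl) f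
        = 0 := h0
    rw [h1]
    simp only [map_sub, map_mul, map_pow, map_prod, aeval_X, aeval_C, map_one, hcast,
      Sum.elim_inl, Sum.elim_inr, Int.cast_natCast]
    have h2 : ∀ i, (∏ e ∈ E, ((e.den : ℚ) * x i - e.num))⁻¹ *
        ∏ e ∈ E, ((e.den : ℚ) * x i - e.num) = 1 := fun i =>
      inv_mul_cancel₀ ((key (x i)).mpr (hx i))
    simp [h2]
  · rintro ⟨x, h⟩
    rw [map_add, map_pow, aeval_rename, map_sum] at h
    obtain ⟨h1, h2⟩ := sq_add_sum Finset.univ _ _ (fun i _ => by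
      rw [map_pow]
      exact sq_nonneg _) h
    refine ⟨x ∘ Sum.inl, fun i => ?_, h1⟩
    have h3 := h2 i (Finset.mem_univ i)
    simp only [map_sub, map_mul, map_pow, map_prod, aeval_X, aeval_C, map_one, hcast,
      Int.cast_natCast] at h3
    have h4 := pow_eq_zero_iff (two_ne_zero) |>.mp h3
    apply (key _).mp
    intro h5
    change ∏ e ∈ E, ((e.den : ℚ) * x (Sum.inl i) - e.num) = 0 at h5
    rw [h5, mul_zero] at h4
    norm_num at h4

end cofinite

end Vale.Agent.P027
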